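import Vale.Agent.P089Z.Rep

/-! P089: conjugation by isometries, and its effect on the data of the index. -/

namespace Vale.Agent.P089G45

open scoped InnerProductSpace ZeroAtInfty
open ContinuousLinearMap Vale.Agent.P089Z Vale.Agent.P089 Vale.Agent.P089.Asm

section Mp

variable {G A B C : Type} [Group G] [Ring A] [Ring B] [Ring C]

/-- A homomorphism of the coefficients acts on the group rings. -/
noncomputable def mp (φ : A →ₙ+* B) : MonoidAlgebra A G →ₙ+* MonoidAlgebra B G where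
  toFun := MonoidAlgebra.map φ.toAddMonoidHom
  map_zero' := MonoidAlgebra.map_zero _
  map_add' := MonoidAlgebra.map_add _
  map_mul' x y := by
    ext1
    ext1 s
    have hc : ∀ (z : MonoidAlgebra A G) (t : G),
        (MonoidAlgebra.map φ.toAddMonoidHom z).coeff t = φ (z.coeff t) := fun _ _ => rfl
    rw [hc, MonoidAlgebra.coeff_mul_apply_left, MonoidAlgebra.coeff_mul_apply_left,
      Finsupp.sum_of_support_subset (MonoidAlgebra.map φ.toAddMonoidHom x).coeff
        (s := x.coeff.support) (Finsupp.support_mapRange (hf := map_zero φ.toAddMonoidHom)) _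
        (fun _ _ => by rw [zero_mul]),
      Finsupp.sum, map_sum]
    exact Finset.sum_congr rfl fun t _ => map_mul φ _ _

theorem coeff_mp (φ : A →ₙ+* B) (x : MonoidAlgebra A G) (s : G) :
    (mp φ x).coeff s = φ (x.coeff s) := rfl

theorem mp_single (φ : A →ₙ+* B) (s : G) (a : A) :
    mp φ (MonoidAlgebra.single s a) = MonoidAlgebra.single s (φ a) :=
  MonoidAlgebra.map_single _ _ _

theorem mp_comp (ψ : B →ₙ+* C) (φ : A →ₙ+* B) (x : MonoidAlgebra A G) :
    mp ψ (mp φ x) = mp (ψ.comp φ) x := by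
  ext1
  ext1 s
  rfl

theorem mp_orth {α : A →ₙ+* C} {β : B →ₙ+* C} (h : ∀ a b, α a * β b = 0)
    (x : MonoidAlgebra A G) (y : MonoidAlgebra B G) : mp α x * mp β y = 0 := by
  ext1
  ext1 s
  rw [MonoidAlgebra.coeff_mul_apply_left, Finsupp.sum, MonoidAlgebra.coeff_zero,
    Finsupp.zero_apply]
  exact Finset.sum_eq_zero fun t _ => h _ _

theorem orth_mul {A B C : Type} [NonUnitalNonAssocSemiring A] [NonUnitalNonAssocSemiring B]
    [NonUnitalNonAssocSemiring C] {α : A →ₙ+* C} {β : B →ₙ+* C} (h : ∀ a b, α a * β b = 0)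
    (h' : ∀ b a, β b * α a = 0) (a a' : A) (b b' : B) :
    (α a + β b) * (α a' + β b') = α (a * a') + β (b * b') := by
  rw [add_mul, mul_add, mul_add, h, h', add_zero, zero_add, map_mul, map_mul]

end Mp

section Ad

variable {H K L : Type} [NormedAddCommGroup H] [InnerProductSpace ℂ H] [CompleteSpace H]
  [NormedAddCommGroup K] [InnerProductSpace ℂ K] [CompleteSpace K]
  [NormedAddCommGroup L] [InnerProductSpace ℂ L] [CompleteSpace L]

theorem iso_apply {v : H →L[ℂ] K} (hv : adjoint v ∘L v = 1) (x : H) : adjoint v (v x) = x :=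
  congrArg (fun T : H →L[ℂ] H => T x) hv

/-- Conjugation `T ↦ v T v*` by an isometry. -/
noncomputable def adV (v : H →L[ℂ] K) (hv : adjoint v ∘L v = 1) :
    (H →L[ℂ] H) →ₙ+* (K →L[ℂ] K) where
  toFun T := v ∘L T ∘L adjoint v
  map_mul' S T := by
    ext1 x
    change v (S (T (adjoint v x))) = v (S (adjoint v (v (T (adjoint v x)))))
    rw [iso_apply hv]
  map_zero' := by rw [zero_comp, comp_zero]
  map_add' S T := by rw [add_comp, comp_add]

theorem adV_apply {v : H →L[ℂ] K} (hv : adjoint v ∘L v = 1) (T : H →L[ℂ] H) (x : K) :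
    adV v hv T x = v (T (adjoint v x)) := rfl

theorem adV_cp {v : H →L[ℂ] K} (hv : adjoint v ∘L v = 1) (T : H →L[ℂ] H) (hT : Cp T) :
    Cp (adV v hv T) :=
  (IsCompactOperator.comp_clm hT (adjoint v)).clm_comp v

theorem adV_smul {v : H →L[ℂ] K} (hv : adjoint v ∘L v = 1) (c : ℂ) (T : H →L[ℂ] H) :
    adV v hv (c • T) = c • adV v hv T := by
  ext1 x
  rw [adV_apply, smul_apply, smul_apply, map_smul, adV_apply]

theorem adV_cont {v : H →L[ℂ] K} (hv : adjoint v ∘L v = 1) : Continuous (adV v hv) :=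
  continuous_const.clm_comp (continuous_id.clm_comp continuous_const)

theorem iso_comp {v : H →L[ℂ] K} {V : K →L[ℂ] L} (hv : adjoint v ∘L v = 1)
    (hV : adjoint V ∘L V = 1) : adjoint (V ∘L v) ∘L (V ∘L v) = 1 := by
  ext1 x
  rw [adjoint_comp]
  change adjoint v (adjoint V (V (v x))) = x
  rw [iso_apply hV, iso_apply hv]

theorem adV_comp {v : H →L[ℂ] K} {V : K →L[ℂ] L} (hv : adjoint v ∘L v = 1)
    (hV : adjoint V ∘L V = 1) :
    (adV V hV).comp (adV v hv) = adV (V ∘L v) (iso_comp hv hV) := by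
  ext1 T
  ext1 x
  rw [adV_apply, adjoint_comp]
  rfl

/-- The isometry of `H` in `ℓ²(ℕ)` given by an orthonormal basis. -/
noncomputable def isoN {ι : Type} (d : HilbertBasis ι ℂ H) (u : ι ↪ ℕ) : H →L[ℂ] L2 ℕ :=
  pushL2 u u.injective ∘L (d.repr.toContinuousLinearEquiv : H →L[ℂ] L2 ι)

theorem adj_repr {ι : Type} (d : HilbertBasis ι ℂ H) :
    adjoint (d.repr.toContinuousLinearEquiv : H →L[ℂ] L2 ι) =
      (d.repr.symm.toContinuousLinearEquiv : L2 ι →L[ℂ] H) :=
  d.repr.adjoint_eq_symm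

theorem isoN_iso {ι : Type} (d : HilbertBasis ι ℂ H) (u : ι ↪ ℕ) :
    adjoint (isoN d u) ∘L isoN d u = 1 := by
  refine iso_comp ?_ (adjoint_pushL2_comp u.injective)
  ext1 x
  rw [adj_repr]
  exact d.repr.symm_apply_apply x

theorem cj_eq {ι : Type} (d : HilbertBasis ι ℂ H) (u : ι ↪ ℕ) :
    cj d u = adV (isoN d u) (isoN_iso d u) := by
  ext1 T
  ext1 x
  rw [adV_apply, isoN, adjoint_comp, adj_repr]
  rfl

theorem orth_of_sum {v : H →L[ℂ] L} {w : K →L[ℂ] L} (hv : adjoint v ∘L v = 1)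
    (h : v ∘L adjoint v + w ∘L adjoint w = 1) (x : H) : adjoint w (v x) = 0 := by
  have h1 : v (adjoint v (v x)) + w (adjoint w (v x)) = v x :=
    congrArg (fun T : L →L[ℂ] L => T (v x)) h
  rw [iso_apply hv, add_eq_left] at h1
  rw [← inner_self_eq_zero (𝕜 := ℂ), adjoint_inner_left, h1, inner_zero_right]

theorem adV_orth {v : H →L[ℂ] L} {w : K →L[ℂ] L} (hv : adjoint v ∘L v = 1)
    (hw : adjoint w ∘L w = 1) (h : v ∘L adjoint v + w ∘L adjoint w = 1) (T : K →L[ℂ] K)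
    (S : H →L[ℂ] H) : adV w hw T * adV v hv S = 0 := by
  ext1 x
  change w (T (adjoint w (v (S (adjoint v x))))) = 0
  rw [orth_of_sum hv h, map_zero, map_zero]

theorem eq_adV {v : H →L[ℂ] K} (hv : adjoint v ∘L v = 1) (h : v ∘L adjoint v = 1)
    {S : H →L[ℂ] H} {T : K →L[ℂ] K} (e : T ∘L v = v ∘L S) : T = adV v hv S := by
  ext1 x
  have h1 : v (adjoint v x) = x := congrArg (fun T : K →L[ℂ] K => T x) h
  have h2 : T (v (adjoint v x)) = v (S (adjoint v x)) :=
    congrArg (fun T : H →L[ℂ] K => T (adjoint v x)) e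
  rw [adV_apply, ← h2, h1]

theorem eq_adV_add {v : H →L[ℂ] L} {w : K →L[ℂ] L} (hv : adjoint v ∘L v = 1)
    (hw : adjoint w ∘L w = 1) (h : v ∘L adjoint v + w ∘L adjoint w = 1)
    {S : H →L[ℂ] H} {S' : K →L[ℂ] K} {T : L →L[ℂ] L} (e : T ∘L v = v ∘L S)
    (e' : T ∘L w = w ∘L S') : T = adV v hv S + adV w hw S' := by
  ext1 x
  have h1 : v (adjoint v x) + w (adjoint w x) = x := congrArg (fun T : L →L[ℂ] L => T x) h
  have h2 : T (v (adjoint v x)) = v (S (adjoint v x)) :=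
    congrArg (fun T : H →L[ℂ] L => T (adjoint v x)) e
  have h3 : T (w (adjoint w x)) = w (S' (adjoint w x)) :=
    congrArg (fun T : K →L[ℂ] L => T (adjoint w x)) e'
  rw [add_apply, adV_apply, adV_apply, ← h2, ← h3, ← map_add, h1]

/-- The two isometries `V`, `V'` give equivalent idempotents. -/
theorem adV_cross {G : Type} [Group G] {V : H →L[ℂ] K} {V' : H →L[ℂ] K}
    (hV : adjoint V ∘L V = 1) (hV' : adjoint V' ∘L V' = 1) (x : MonoidAlgebra (H →L[ℂ] H) G) :
    MonoidAlgebra.single 1 (V' ∘L adjoint V) * mp (adV V hV) x *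
      MonoidAlgebra.single 1 (V ∘L adjoint V') = mp (adV V' hV') x := by
  ext1
  ext1 s
  rw [MonoidAlgebra.coeff_mul_single_one, MonoidAlgebra.coeff_single_one_mul, coeff_mp, coeff_mp]
  ext1 y
  change V' (adjoint V (V (x.coeff s (adjoint V (V (adjoint V' y)))))) =
    V' (x.coeff s (adjoint V' y))
  rw [iso_apply hV, iso_apply hV]

theorem adV_absorb {G : Type} [Group G] {V : H →L[ℂ] K} {V' : H →L[ℂ] K}
    (hV : adjoint V ∘L V = 1) (hV' : adjoint V' ∘L V' = 1) (x : MonoidAlgebra (H →L[ℂ] H) G) :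
    mp (adV V hV) x * MonoidAlgebra.single 1 (V ∘L adjoint V') *
      MonoidAlgebra.single 1 (V' ∘L adjoint V) = mp (adV V hV) x := by
  ext1
  ext1 s
  rw [MonoidAlgebra.coeff_mul_single_one, MonoidAlgebra.coeff_mul_single_one, coeff_mp]
  ext1 y
  change V (x.coeff s (adjoint V (V (adjoint V' (V' (adjoint V y)))))) =
    V (x.coeff s (adjoint V y))
  rw [iso_apply hV, iso_apply hV']

end Ad

section Cyc

variable {G X H K L : Type} [Group G] [TopologicalSpace X] [MulAction G X]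
  [ContinuousConstSMul G X]
  [NormedAddCommGroup H] [InnerProductSpace ℂ H] [CompleteSpace H]
  [NormedAddCommGroup K] [InnerProductSpace ℂ K] [CompleteSpace K]
  [NormedAddCommGroup L] [InnerProductSpace ℂ L] [CompleteSpace L]

/-- `v` is an isometry which intertwines the two cycles. -/
structure Emb (a : Cycle G X H) (c : Cycle G X K) (v : H →L[ℂ] K) : Prop where
  iso : adjoint v ∘L v = 1
  γ : c.γ ∘L v = v ∘L a.γ
  ρ : ∀ f, c.ρ f ∘L v = v ∘L a.ρ f
  U : ∀ g, (c.U g).1 ∘L v = v ∘L (a.U g).1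
  F : c.F ∘L v = v ∘L a.F

/-- The source idempotent. -/
noncomputable def p0 (Z : Cycle G X H) (w : C₀(X, ℂ)) : MonoidAlgebra (H →L[ℂ] H) G :=
  Z.even (Z.proj w)

/-- The target idempotent. -/
noncomputable def p1 (Z : Cycle G X H) (w : C₀(X, ℂ)) : MonoidAlgebra (H →L[ℂ] H) G :=
  Z.odd (Z.proj w)

/-- The operator. -/
noncomputable def opT (Z : Cycle G X H) (w : C₀(X, ℂ)) : MonoidAlgebra (H →L[ℂ] H) G :=
  p1 Z w * MonoidAlgebra.single 1 Z.F * p0 Z w

/-- The parametrix. -/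
noncomputable def opS (Z : Cycle G X H) (w : C₀(X, ℂ)) : MonoidAlgebra (H →L[ℂ] H) G :=
  p0 Z w * MonoidAlgebra.single 1 Z.F * p1 Z w

theorem comp_mul {a b : H →L[ℂ] H} {a' b' : K →L[ℂ] K} {v : H →L[ℂ] K} (h1 : a' ∘L v = v ∘L a)
    (h2 : b' ∘L v = v ∘L b) : (a' * b') ∘L v = v ∘L (a * b) := by
  rw [mul_def, mul_def, comp_assoc, h2, ← comp_assoc, h1, comp_assoc]

theorem Emb.e₀ {a : Cycle G X H} {c : Cycle G X K} {v : H →L[ℂ] K} (h : Emb a c v) :
    c.e₀ ∘L v = v ∘L a.e₀ := by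
  rw [Cycle.e₀, Cycle.e₀, smul_comp, comp_smul, add_comp, comp_add, h.γ]
  rfl

theorem Emb.e₁ {a : Cycle G X H} {c : Cycle G X K} {v : H →L[ℂ] K} (h : Emb a c v) :
    c.e₁ ∘L v = v ∘L a.e₁ := by
  rw [Cycle.e₁, Cycle.e₁, smul_comp, comp_smul, sub_comp, comp_sub, h.γ]
  rfl

variable {w : C₀(X, ℂ)}

/-- The data of unitarily equivalent cycles. -/
theorem unit_data {a : Cycle G X H} {b : Cycle G X K} {v : H →L[ℂ] K} (h : Emb a b v)
    (hv : v ∘L adjoint v = 1) (hfin : {s : G | w * shift s w ≠ 0}.Finite) :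
    p0 b w = mp (adV v h.iso) (p0 a w) ∧ p1 b w = mp (adV v h.iso) (p1 a w) ∧
      opT b w = mp (adV v h.iso) (opT a w) ∧ opS b w = mp (adV v h.iso) (opS a w) := by
  have hp : b.proj w = mp (adV v h.iso) (a.proj w) := by
    ext1
    ext1 s
    rw [coeff_mp, a.coeff_proj hfin, b.coeff_proj hfin]
    exact eq_adV h.iso hv (comp_mul (h.ρ _) (h.U _))
  have h0 : p0 b w = mp (adV v h.iso) (p0 a w) := by
    change b.proj w * MonoidAlgebra.single 1 b.e₀ = mp _ (a.proj w * MonoidAlgebra.single 1 a.e₀)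
    rw [map_mul, mp_single, hp, eq_adV h.iso hv h.e₀]
  have h1 : p1 b w = mp (adV v h.iso) (p1 a w) := by
    change b.proj w * MonoidAlgebra.single 1 b.e₁ = mp _ (a.proj w * MonoidAlgebra.single 1 a.e₁)
    rw [map_mul, mp_single, hp, eq_adV h.iso hv h.e₁]
  refine ⟨h0, h1, ?_, ?_⟩
  · rw [opT, opT, map_mul, map_mul, mp_single, h0, h1, eq_adV h.iso hv h.F]
  · rw [opS, opS, map_mul, map_mul, mp_single, h0, h1, eq_adV h.iso hv h.F]

/-- The data of an orthogonal sum. -/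
theorem sum_data {a : Cycle G X H} {b : Cycle G X K} {c : Cycle G X L} {v : H →L[ℂ] L}
    {v' : K →L[ℂ] L} (h : Emb a c v) (h' : Emb b c v')
    (hv : v ∘L adjoint v + v' ∘L adjoint v' = 1) (hfin : {s : G | w * shift s w ≠ 0}.Finite) :
    p0 c w = mp (adV v h.iso) (p0 a w) + mp (adV v' h'.iso) (p0 b w) ∧
      p1 c w = mp (adV v h.iso) (p1 a w) + mp (adV v' h'.iso) (p1 b w) ∧
      opT c w = mp (adV v h.iso) (opT a w) + mp (adV v' h'.iso) (opT b w) ∧
      opS c w = mp (adV v h.iso) (opS a w) + mp (adV v' h'.iso) (opS b w) := by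
  have o1 := mp_orth (G := G) (adV_orth h'.iso h.iso (by rw [add_comm, hv]))
  have o2 := mp_orth (G := G) (adV_orth h.iso h'.iso hv)
  have hp : c.proj w = mp (adV v h.iso) (a.proj w) + mp (adV v' h'.iso) (b.proj w) := by
    ext1
    ext1 s
    rw [MonoidAlgebra.coeff_add, Finsupp.add_apply, coeff_mp, coeff_mp, a.coeff_proj hfin,
      b.coeff_proj hfin, c.coeff_proj hfin]
    exact eq_adV_add h.iso h'.iso hv (comp_mul (h.ρ _) (h.U _)) (comp_mul (h'.ρ _) (h'.U _))
  have hs : ∀ {S : H →L[ℂ] H} {S' : K →L[ℂ] K} {T : L →L[ℂ] L}, T ∘L v = v ∘L S →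
      T ∘L v' = v' ∘L S' → MonoidAlgebra.single (1 : G) T =
        mp (adV v h.iso) (MonoidAlgebra.single 1 S) +
          mp (adV v' h'.iso) (MonoidAlgebra.single 1 S') := by
    intro S S' T e e'
    rw [mp_single, mp_single, ← MonoidAlgebra.single_add, ← eq_adV_add h.iso h'.iso hv e e']
  have h0 : p0 c w = mp (adV v h.iso) (p0 a w) + mp (adV v' h'.iso) (p0 b w) := by
    change c.proj w * MonoidAlgebra.single 1 c.e₀ = _
    rw [hp, hs h.e₀ h'.e₀, orth_mul o1 o2]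
    rfl
  have h1 : p1 c w = mp (adV v h.iso) (p1 a w) + mp (adV v' h'.iso) (p1 b w) := by
    change c.proj w * MonoidAlgebra.single 1 c.e₁ = _
    rw [hp, hs h.e₁ h'.e₁, orth_mul o1 o2]
    rfl
  refine ⟨h0, h1, ?_, ?_⟩
  · rw [opT, h0, h1, hs h.F h'.F, orth_mul o1 o2, orth_mul o1 o2]
    rfl
  · rw [opS, h0, h1, hs h.F h'.F, orth_mul o1 o2, orth_mul o1 o2]
    rfl

end Cyc

end Vale.Agent.P089G45
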