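import Vale.Agent.P089GS.Trans

/-! P089: the closed algebras generated by the translations. -/

namespace Vale.Agent.P089G45

open scoped InnerProductSpace
open Vale.Agent.P089 Vale.Agent.P089.Asm Vale.Agent.P086 Vale.Agent.P089Z Vale.Agent.P089.Op
  Vale.Agent.P089G44 Vale.Agent.P089GS

section Gen

variable {R S : Type} [NormedRing R] [NormedAlgebra ℂ R] [NormedRing S] [NormedAlgebra ℂ S]

theorem map_mem_clos (φ : R →ₐ[ℂ] S) (hφ : Continuous φ) {s : Set R} {B : Subalgebra ℂ S}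
    (hB : IsClosed (B : Set S)) (h : ∀ x ∈ s, φ x ∈ B) {x : R}
    (hx : x ∈ (Algebra.adjoin ℂ s).topologicalClosure) : φ x ∈ B :=
  Subalgebra.topologicalClosure_minimal (t := B.comap φ) (Algebra.adjoin_le h)
    (hB.preimage hφ) hx

end Gen

variable {G : Type} [Group G]

theorem Ei_dl_self (i j : ℕ) (g x : G) : Ei i j (lam g) (dl (x, j)) = dl (g * x, i) := by
  change Vi i (lam g (ContinuousLinearMap.adjoint (Vi j) (dl (x, j)))) = _
  rw [adj_Vi_dl_self, lam_dl, Vi_dl]

theorem Ei_dl_ne (i j : ℕ) (g x : G) {n : ℕ} (h : n ≠ j) : Ei i j (lam g) (dl (x, n)) = 0 := by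
  change Vi i (lam g (ContinuousLinearMap.adjoint (Vi j) (dl (x, n)))) = _
  rw [adj_Vi_dl_ne h, map_zero, map_zero]

theorem Ei_lam_mem (i j : ℕ) (g : G) : Ei i j (lam g) ∈ UU G := by
  have h : Ei i j (lam g) = Ei i 0 1 * Ei 0 0 (lam g) * Ei 0 j 1 := by
    rw [Ei_mul, if_pos rfl, Ei_mul, if_pos rfl, one_mul, mul_one]
  rw [h]
  exact roeU_le_UU (((roeB_Ei_one i 0).mul (roeB_Ei_lam g)).mul (roeB_Ei_one 0 j)).mem_roeU

theorem Ei_sum (i j : ℕ) (E : Finset G) (z : G → ℂ) :
    Ei i j (∑ s ∈ E, z s • lam s) = ∑ s ∈ E, z s • Ei i j (lam s) := by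
  simp only [Ei, ContinuousLinearMap.finset_sum_comp, ContinuousLinearMap.comp_finset_sum,
    ContinuousLinearMap.smul_comp, ContinuousLinearMap.comp_smul]

theorem UU_le {B : Subalgebra ℂ (L2 (G × ℕ) →L[ℂ] L2 (G × ℕ))}
    (hB : IsClosed (B : Set (L2 (G × ℕ) →L[ℂ] L2 (G × ℕ)))) (h : ∀ i j g, Ei i j (lam g) ∈ B) :
    UU G ≤ B := by
  refine Subalgebra.topologicalClosure_minimal ?_ hB
  rintro T ⟨c, hc⟩
  have h1 : T - c • 1 ∈ B := by
    generalize T - c • 1 = S at hc
    obtain ⟨E, hE⟩ := hc.isRoe.propagation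
    have h2 : ∀ k, pk k * S * pk k ∈ B := by
      intro k
      rw [pk_eq, Finset.sum_mul, Finset.sum_mul]
      refine B.sum_mem fun i _ => ?_
      rw [Finset.mul_sum]
      refine B.sum_mem fun j _ => ?_
      rw [← Ei_cmp, cmp_eq_sum hc.isRoe.equivariant hE, Ei_sum]
      exact B.sum_mem fun s _ => B.smul_mem (h _ _ _) _
    refine hB.closure_subset (Metric.mem_closure_iff.2 fun ε hε => ?_)
    obtain ⟨k, hk⟩ := hc.exists_cut (half_pos hε)
    exact ⟨_, h2 k, by rw [dist_eq_norm]; exact (hk k le_rfl).trans_lt (half_lt_self hε)⟩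
  have h3 := B.add_mem h1 (B.smul_mem B.one_mem c)
  rwa [sub_add_cancel] at h3

theorem CrG_le {B : Subalgebra ℂ (L2 G →L[ℂ] L2 G)} (hB : IsClosed (B : Set (L2 G →L[ℂ] L2 G)))
    (h : ∀ g, lam g ∈ B) {T : L2 G →L[ℂ] L2 G} (hT : T ∈ CrG G) : T ∈ B := by
  refine closure_minimal ?_ hB (mem_CrG.1 hT)
  refine (Submodule.span_le (p := Subalgebra.toSubmodule B)).2 ?_
  rintro S ⟨g, hg⟩
  rw [hg.eq_lam]
  exact h g

variable {K E : Type} [NormedAddCommGroup K] [InnerProductSpace ℂ K] [CompleteSpace K]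
  [NormedAddCommGroup E] [InnerProductSpace ℂ E] [CompleteSpace E]

omit [CompleteSpace E] in
theorem repr_basis {I : Type} (c : HilbertBasis I ℂ E) (i : I) : c.repr (c i) = dl i := by
  classical
  rw [c.repr_self]
  exact congrArg (fun d => @lp.single I (fun _ => ℂ) _ d 2 i 1) (Subsingleton.elim _ _)

theorem frE_dl {I : Type} (c : HilbertBasis I ℂ E) (T : E →L[ℂ] E) (i : I) :
    BC.frE c T (dl i) = c.repr (T (c i)) := by
  rw [BC.frE_apply, ← repr_basis c, LinearIsometryEquiv.symm_apply_apply]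

theorem symm_basis {I : Type} (c : HilbertBasis I ℂ E) (S : L2 I →L[ℂ] L2 I) (i : I) :
    c.repr ((BC.frE c).symm S (c i)) = S (dl i) := by
  rw [← frE_dl, StarAlgEquiv.apply_symm_apply]

/-- The closed algebra generated by the left translations is the reduced group C*-algebra. -/
theorem mem_cstar_iff (b : HilbertBasis G ℂ K) (T : K →L[ℂ] K) :
    T ∈ (Algebra.adjoin ℂ {T : K →L[ℂ] K | ∃ g, ∀ x, T (b x) = b (g * x)}).topologicalClosure ↔
      T ∈ BC.CstarR b := by
  rw [cstar_iff]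
  constructor
  · refine map_mem_clos (B := (CrG G).toSubalgebra) (BC.frE b).toAlgEquiv.toAlgHom
      (BC.frE_isometry b).continuous (coe_CrG (G := G) ▸ isClosed_CstarR) ?_
    rintro S ⟨g, hg⟩
    have h1 : BC.frE b S = lam g := clm_ext_dl fun x => by
      rw [frE_dl, hg, repr_basis, lam_dl]
    change BC.frE b S ∈ CrG G
    rw [h1]
    exact mem_CrG.2 (lam_mem g)
  · intro h
    have h1 := CrG_le (B := (Algebra.adjoin ℂ
        {T : K →L[ℂ] K | ∃ g, ∀ x, T (b x) = b (g * x)}).topologicalClosure.comap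
        (BC.frE b).symm.toAlgEquiv.toAlgHom)
      ((Subalgebra.isClosed_topologicalClosure _).preimage (frE_symm_continuous b))
      (fun g => Subalgebra.le_topologicalClosure _ (Algebra.subset_adjoin ⟨g, fun x =>
        b.repr.injective ((symm_basis b (lam g) x).trans (by rw [lam_dl, repr_basis]))⟩)) h
    exact (BC.frE b).symm_apply_apply T ▸ (Subalgebra.mem_comap _ _ _).1 h1

/-- The closed unital algebra generated by the operators `λ_g ⊗ e_ij`. -/
theorem mem_stab_iff (c : HilbertBasis (G × ℕ) ℂ E) (T : E →L[ℂ] E) :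
    T ∈ (Algebra.adjoin ℂ {T : E →L[ℂ] E | ∃ g i j, (∀ x, T (c (x, j)) = c (g * x, i)) ∧
      ∀ x n, n ≠ j → T (c (x, n)) = 0}).topologicalClosure ↔ BC.IsU c T := by
  rw [isU_iff']
  constructor
  · refine map_mem_clos (B := UU G) (BC.frE c).toAlgEquiv.toAlgHom
      (BC.frE_isometry c).continuous (isClosed_UU G) ?_
    rintro S ⟨g, i, j, h1, h2⟩
    have h3 : BC.frE c S = Ei i j (lam g) := clm_ext_dl fun y => by
      obtain ⟨x, n⟩ := y
      by_cases hn : n = j
      · rw [hn, frE_dl, h1, repr_basis, Ei_dl_self]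
      · rw [frE_dl, h2 x n hn, map_zero, Ei_dl_ne i j g x hn]
    change BC.frE c S ∈ UU G
    rw [h3]
    exact Ei_lam_mem i j g
  · intro h
    have h1 := UU_le (B := (Algebra.adjoin ℂ
        {T : E →L[ℂ] E | ∃ g i j, (∀ x, T (c (x, j)) = c (g * x, i)) ∧
          ∀ x n, n ≠ j → T (c (x, n)) = 0}).topologicalClosure.comap
        (BC.frE c).symm.toAlgEquiv.toAlgHom)
      ((Subalgebra.isClosed_topologicalClosure _).preimage (frE_symm_continuous c))
      (fun i j g => Subalgebra.le_topologicalClosure _ (Algebra.subset_adjoin ⟨g, i, j,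
        fun x => c.repr.injective ((symm_basis c (Ei i j (lam g)) (x, j)).trans
          (by rw [Ei_dl_self, repr_basis])),
        fun x n hn => c.repr.injective ((symm_basis c (Ei i j (lam g)) (x, n)).trans
          (by rw [Ei_dl_ne i j g x hn, map_zero]))⟩)) h
    exact (BC.frE c).symm_apply_apply T ▸ (Subalgebra.mem_comap _ _ _).1 h1

end Vale.Agent.P089G45
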