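import Vale.Agent.P089G45.Path
import Vale.Agent.P089GR.Ind

/-! P089: the index class does not depend on the isometry, is invariant under unitary
equivalence and operator homotopy, and is additive. -/

namespace Vale.Agent.P089G45

open scoped InnerProductSpace ZeroAtInfty
open ContinuousLinearMap Vale.Agent.P089Z Vale.Agent.P089 Vale.Agent.P089.Asm Vale.Agent.P089GR

section

variable {G X H K L Q B : Type} [Group G] [TopologicalSpace X] [MulAction G X]
  [ContinuousConstSMul G X]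
  [NormedAddCommGroup H] [InnerProductSpace ℂ H] [CompleteSpace H]
  [NormedAddCommGroup K] [InnerProductSpace ℂ K] [CompleteSpace K]
  [NormedAddCommGroup L] [InnerProductSpace ℂ L] [CompleteSpace L]
  [Ring Q] [NormedRing B] [NormedAlgebra ℂ B] [CompleteSpace B]
  {R : Rel (MonoidAlgebra OpN G) Q B} {w : C₀(X, ℂ)}

/-- `d` is the datum of the index of the cycle `Z` for the cutoff `w`, transported by `φ`. -/
structure IsDat (d : IDat R) (Z : Cycle G X H) (w : C₀(X, ℂ)) (φ : (H →L[ℂ] H) →ₙ+* OpN) :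
    Prop where
  e₀ : d.p₀ = mp φ (p0 Z w)
  e₁ : d.p₁ = mp φ (p1 Z w)
  eT : d.T = mp φ (opT Z w)
  eS : d.S = mp φ (opS Z w)

theorem IsDat.ind_congr {d d' : IDat R} {Z : Cycle G X H} {φ : (H →L[ℂ] H) →ₙ+* OpN}
    (h : IsDat d Z w φ) (h' : IsDat d' Z w φ) : d.ind = d'.ind :=
  d.ind_perturb d' (h'.e₀.trans h.e₀.symm) (h'.e₁.trans h.e₁.symm) (by rw [h.eT, h'.eT])
    (by rw [h.eS, h'.eS])

/-- Independence of the isometry. -/
theorem ind_iso {d d' : IDat R} {Z : Cycle G X H} {V V' : H →L[ℂ] L2 ℕ}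
    {hV : adjoint V ∘L V = 1} {hV' : adjoint V' ∘L V' = 1} (h : IsDat d Z w (adV V hV))
    (h' : IsDat d' Z w (adV V' hV')) : d.ind = d'.ind := by
  set a : MonoidAlgebra OpN G := MonoidAlgebra.single 1 (V ∘L adjoint V') with ha
  set b : MonoidAlgebra OpN G := MonoidAlgebra.single 1 (V' ∘L adjoint V) with hb
  have k1 : ∀ x, mp (adV V hV) x * a * b = mp (adV V hV) x := adV_absorb hV hV'
  have k2 : ∀ x, b * mp (adV V hV) x * a = mp (adV V' hV') x := adV_cross hV hV'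
  have k3 : ∀ p : MonoidAlgebra OpN G, p * p = p → p * a * b = p → p * a * (b * p) = p := by
    intro p h1 h2
    rw [← mul_assoc, h2, h1]
  have k4 : ∀ p : MonoidAlgebra OpN G, p * p = p → b * p * (p * a) = b * p * a := by
    intro p h1
    rw [← mul_assoc, mul_assoc b, h1]
  refine d.ind_transport d' (d.p₀ * a) (b * d.p₀) (d.p₁ * a) (b * d.p₁)
    (k3 _ d.h₀ (by rw [h.e₀, k1])) (by rw [k4 _ d.h₀, h.e₀, k2, h'.e₀])
    (k3 _ d.h₁ (by rw [h.e₁, k1])) (by rw [k4 _ d.h₁, h.e₁, k2, h'.e₁]) ?_ ?_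
  · rw [mul_assoc b, d.T₁, ← mul_assoc, mul_assoc b, d.T₀, h.eT, k2, h'.eT]
  · rw [mul_assoc b, d.S₀, ← mul_assoc, mul_assoc b, d.S₁, h.eS, k2, h'.eS]

theorem IsDat.unit {d : IDat R} {a : Cycle G X H} {b : Cycle G X K} {v : H →L[ℂ] K}
    (h : Emb a b v) (hv : v ∘L adjoint v = 1) (hfin : {s : G | w * shift s w ≠ 0}.Finite)
    {φ : (K →L[ℂ] K) →ₙ+* OpN} (hd : IsDat d b w φ) : IsDat d a w (φ.comp (adV v h.iso)) := by
  obtain ⟨h0, h1, h2, h3⟩ := unit_data h hv hfin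
  exact ⟨by rw [hd.e₀, h0, mp_comp], by rw [hd.e₁, h1, mp_comp], by rw [hd.eT, h2, mp_comp],
    by rw [hd.eS, h3, mp_comp]⟩

/-- Invariance under unitary equivalence. -/
theorem ind_unit {d d' : IDat R} {a : Cycle G X H} {b : Cycle G X K} {v : H →L[ℂ] K}
    (h : Emb a b v) (hv : v ∘L adjoint v = 1) (hfin : {s : G | w * shift s w ≠ 0}.Finite)
    {V : H →L[ℂ] L2 ℕ} {V' : K →L[ℂ] L2 ℕ} {hV : adjoint V ∘L V = 1} {hV' : adjoint V' ∘L V' = 1}
    (hd : IsDat d a w (adV V hV)) (hd' : IsDat d' b w (adV V' hV')) : d.ind = d'.ind := by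
  have h1 := IsDat.unit h hv hfin hd'
  rw [adV_comp] at h1
  exact ind_iso hd h1

/-- Additivity, for compatible homomorphisms. -/
theorem ind_sum_comp {d da db : IDat R} {a : Cycle G X H} {b : Cycle G X K} {c : Cycle G X L}
    {v : H →L[ℂ] L} {v' : K →L[ℂ] L} (h : Emb a c v) (h' : Emb b c v')
    (hv : v ∘L adjoint v + v' ∘L adjoint v' = 1) (hfin : {s : G | w * shift s w ≠ 0}.Finite)
    {φ : (L →L[ℂ] L) →ₙ+* OpN} (hd : IsDat d c w φ) (ha : IsDat da a w (φ.comp (adV v h.iso)))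
    (hb : IsDat db b w (φ.comp (adV v' h'.iso))) : d.ind = da.ind + db.ind := by
  obtain ⟨h0, h1, h2, h3⟩ := sum_data h h' hv hfin
  have o1 : ∀ x y, mp (G := G) (φ.comp (adV v h.iso)) x * mp (φ.comp (adV v' h'.iso)) y = 0 :=
    mp_orth fun S T => by
      change φ (adV v h.iso S) * φ (adV v' h'.iso T) = 0
      rw [← map_mul, adV_orth h'.iso h.iso (by rw [add_comm, hv]), map_zero]
  have o2 : ∀ x y, mp (G := G) (φ.comp (adV v' h'.iso)) x * mp (φ.comp (adV v h.iso)) y = 0 :=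
    mp_orth fun S T => by
      change φ (adV v' h'.iso S) * φ (adV v h.iso T) = 0
      rw [← map_mul, adV_orth h.iso h'.iso hv, map_zero]
  refine d.ind_add da db ?_ ?_ ?_ ?_ ?_ ?_ ?_ ?_
  · rw [hd.e₀, ha.e₀, hb.e₀, h0, map_add, mp_comp, mp_comp]
  · rw [hd.e₁, ha.e₁, hb.e₁, h1, map_add, mp_comp, mp_comp]
  · rw [hd.eT, ha.eT, hb.eT, h2, map_add, mp_comp, mp_comp]
  · rw [hd.eS, ha.eS, hb.eS, h3, map_add, mp_comp, mp_comp]
  · rw [ha.e₀, hb.e₀, o1]
  · rw [ha.e₀, hb.e₀, o2]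
  · rw [ha.e₁, hb.e₁, o1]
  · rw [ha.e₁, hb.e₁, o2]

/-- Invariance under operator homotopy. -/
theorem ind_htpy {T : Type} [TopologicalSpace T] [PreconnectedSpace T]
    (hR : ∀ γ ∈ Adm G T, (∀ t, R.q (γ t) = 0) → Continuous fun t => R.j (γ t))
    (c : T → Cycle G X H) (a : Cycle G X H)
    (h : ∀ t, (c t).γ = a.γ ∧ (c t).ρ = a.ρ ∧ (c t).U = a.U) (hF : Continuous fun t => (c t).F)
    {φ : (H →L[ℂ] H) →ₙ+* OpN} (hφ : Continuous φ) (d : T → IDat R)
    (hd : ∀ t, IsDat (d t) (c t) w φ) (s t : T) : (d s).ind = (d t).ind := by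
  obtain ⟨h0, h1, h2, h3⟩ := htpy_data (w := w) c a h hF φ hφ
  refine IDat.ind_path (Adm G T) adm_const hR d ?_ ?_ ?_ ?_ s t
  · simp only [fun t => (hd t).e₀]
    exact h0
  · simp only [fun t => (hd t).e₁]
    exact h1
  · simp only [fun t => (hd t).eT]
    exact h2
  · simp only [fun t => (hd t).eS]
    exact h3

end

end Vale.Agent.P089G45
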