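import Vale.Agent.P089G45.Ad

/-! P089: admissible paths in the group ring of operators. -/

namespace Vale.Agent.P089G45

open scoped InnerProductSpace ZeroAtInfty
open Vale.Agent.P089Z Vale.Agent.P089 Vale.Agent.P089.Asm Vale.Agent.P089.Ind

section Path

variable {G : Type} [Group G] {T : Type} [TopologicalSpace T]

theorem rep_single {B : Type} [Ring B] (φ : B →ₙ+* OpN) (s : G) (r : B) :
    rep φ (MonoidAlgebra.single s r) = tens s (φ r) := by
  classical
  refine bl_ext fun g h => ?_
  rw [bl_rep, bl_tens, MonoidAlgebra.coeff_single, Finsupp.single_apply]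
  split_ifs
  · rfl
  · rw [map_zero]

theorem amp_cont : Continuous fun S : OpN => (amp S : L2 (G × ℕ) →L[ℂ] L2 (G × ℕ)) := by
  let f : OpN →ₗ[ℂ] (L2 (G × ℕ) →L[ℂ] L2 (G × ℕ)) :=
    { toFun := fun S => amp S
      map_add' := amp_add
      map_smul' := amp_smul }
  exact (f.mkContinuous 1 fun S => by rw [one_mul]; exact norm_amp_le S).continuous

theorem tens_cont (s : G) : Continuous fun S : OpN => tens s S :=
  continuous_const.clm_comp amp_cont

variable (G T) in
/-- Admissible paths of elements of the group ring of operators. -/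
noncomputable def Adm : Subring (T → MonoidAlgebra OpN G) where
  carrier := {γ | Continuous fun t => rep (NonUnitalRingHom.id OpN) (γ t)}
  mul_mem' {a b} ha hb := by
    change Continuous fun t => rep (NonUnitalRingHom.id OpN) (a t * b t)
    simp only [map_mul]
    exact Continuous.mul ha hb
  one_mem' := continuous_const (y := rep (NonUnitalRingHom.id OpN) (1 : MonoidAlgebra OpN G))
  add_mem' {a b} ha hb := by
    change Continuous fun t => rep (NonUnitalRingHom.id OpN) (a t + b t)
    simp only [map_add]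
    exact Continuous.add ha hb
  zero_mem' := continuous_const (y := rep (NonUnitalRingHom.id OpN) (0 : MonoidAlgebra OpN G))
  neg_mem' {a} ha := by
    change Continuous fun t => rep (NonUnitalRingHom.id OpN) (-a t)
    simp only [map_neg]
    exact Continuous.neg ha

theorem adm_cont {γ : T → MonoidAlgebra OpN G} (h : γ ∈ Adm G T) :
    Continuous fun t => rep (NonUnitalRingHom.id OpN) (γ t) := h

theorem adm_const (a : MonoidAlgebra OpN G) : (fun _ : T => a) ∈ Adm G T :=
  continuous_const (y := rep (NonUnitalRingHom.id OpN) a)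

theorem adm_single (s : G) {F : T → OpN} (hF : Continuous F) :
    (fun t => MonoidAlgebra.single s (F t)) ∈ Adm G T := by
  change Continuous fun t => rep (NonUnitalRingHom.id OpN) (MonoidAlgebra.single s (F t))
  simp only [rep_single]
  exact (tens_cont s).comp hF

theorem rep_mp {B : Type} [Ring B] (φ : B →ₙ+* OpN) (a : MonoidAlgebra B G) :
    rep (NonUnitalRingHom.id OpN) (mp φ a) = rep φ a :=
  bl_ext fun g h => by rw [bl_rep, bl_rep]; rfl

end Path

section Htpy

variable {G X H : Type} [Group G] [TopologicalSpace X] [MulAction G X]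
  [ContinuousConstSMul G X]
  [NormedAddCommGroup H] [InnerProductSpace ℂ H] [CompleteSpace H]
  {T : Type} [TopologicalSpace T] {w : C₀(X, ℂ)}

theorem proj_congr {a b : Cycle G X H} (h1 : a.ρ = b.ρ) (h2 : a.U = b.U) : a.proj w = b.proj w := by
  unfold Cycle.proj
  rw [h1, h2]

theorem p0_congr {a b : Cycle G X H} (h0 : a.γ = b.γ) (h1 : a.ρ = b.ρ) (h2 : a.U = b.U) :
    p0 a w = p0 b w := by
  unfold p0 Cycle.even
  rw [h0, proj_congr h1 h2]

theorem p1_congr {a b : Cycle G X H} (h0 : a.γ = b.γ) (h1 : a.ρ = b.ρ) (h2 : a.U = b.U) :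
    p1 a w = p1 b w := by
  unfold p1 Cycle.odd
  rw [h0, proj_congr h1 h2]

/-- The data of an operator homotopy are admissible paths. -/
theorem htpy_data (c : T → Cycle G X H) (a : Cycle G X H)
    (h : ∀ t, (c t).γ = a.γ ∧ (c t).ρ = a.ρ ∧ (c t).U = a.U) (hF : Continuous fun t => (c t).F)
    (φ : (H →L[ℂ] H) →ₙ+* OpN) (hφ : Continuous φ) :
    (fun t => mp φ (p0 (c t) w)) ∈ Adm G T ∧ (fun t => mp φ (p1 (c t) w)) ∈ Adm G T ∧
      (fun t => mp φ (opT (c t) w)) ∈ Adm G T ∧ (fun t => mp φ (opS (c t) w)) ∈ Adm G T := by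
  have h0 : (fun t => mp φ (p0 (c t) w)) ∈ Adm G T := by
    simp only [fun t => p0_congr (w := w) (h t).1 (h t).2.1 (h t).2.2]
    exact adm_const _
  have h1 : (fun t => mp φ (p1 (c t) w)) ∈ Adm G T := by
    simp only [fun t => p1_congr (w := w) (h t).1 (h t).2.1 (h t).2.2]
    exact adm_const _
  have h2 : (fun t => MonoidAlgebra.single (1 : G) (φ (c t).F)) ∈ Adm G T :=
    adm_single 1 (hφ.comp hF)
  refine ⟨h0, h1, ?_, ?_⟩
  · simp only [opT, map_mul, mp_single]
    exact (Adm G T).mul_mem ((Adm G T).mul_mem h1 h2) h0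
  · simp only [opS, map_mul, mp_single]
    exact (Adm G T).mul_mem ((Adm G T).mul_mem h0 h2) h1

end Htpy

end Vale.Agent.P089G45
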