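import Vale.Agent.P089G45.Inv
import Vale.Agent.P089GR.Base

/-! P089: invariance of the index class of a cycle. -/

namespace Vale.Agent.P089G45

open scoped InnerProductSpace ZeroAtInfty
open ContinuousLinearMap Vale.Agent.P089Z Vale.Agent.P089 Vale.Agent.P089.Asm Vale.Agent.P089GR
  Vale.Agent.P089G

section Dat

variable {G X H K L ι κ μ : Type} [Group G] [TopologicalSpace X] [MulAction G X]
  [ContinuousConstSMul G X]
  [NormedAddCommGroup H] [InnerProductSpace ℂ H] [CompleteSpace H]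
  [NormedAddCommGroup K] [InnerProductSpace ℂ K] [CompleteSpace K]
  [NormedAddCommGroup L] [InnerProductSpace ℂ L] [CompleteSpace L] {w : C₀(X, ℂ)}
  (hw : IsCutoff G X w) (hfin : {s : G | w * shift s w ≠ 0}.Finite)

theorem isDat (Z : Cycle G X H) (φ : (H →L[ℂ] H) →ₙ+* OpN) (hφ : ∀ T, Cp T → Cp (φ T)) :
    IsDat (R := RR G) (dat Z hw hfin φ hφ) Z w φ :=
  ⟨dat_p₀ Z hw hfin φ hφ, dat_p₁ Z hw hfin φ hφ, dat_T Z hw hfin φ hφ, dat_S Z hw hfin φ hφ⟩

theorem cj_cp (d : HilbertBasis ι ℂ H) (u : ι ↪ ℕ) : ∀ T, Cp T → Cp (cj d u T) :=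
  fun _ h => cj_compact d u h

theorem isDat_cj (Z : Cycle G X H) (d : HilbertBasis ι ℂ H) (u : ι ↪ ℕ)
    (h : ∀ T, Cp T → Cp (cj d u T)) :
    IsDat (R := RR G) (dat Z hw hfin (cj d u) h) Z w (adV (isoN d u) (isoN_iso d u)) := by
  rw [← cj_eq]
  exact isDat hw hfin Z _ h

/-- Independence of the orthonormal basis and of the embedding of its index set. -/
theorem ind_basis (Z : Cycle G X H) (d : HilbertBasis ι ℂ H) (u : ι ↪ ℕ)
    (d' : HilbertBasis κ ℂ H) (u' : κ ↪ ℕ) (h : ∀ T, Cp T → Cp (cj d u T))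
    (h' : ∀ T, Cp T → Cp (cj d' u' T)) :
    (dat Z hw hfin (cj d u) h).ind = (dat Z hw hfin (cj d' u') h').ind :=
  ind_iso (isDat_cj hw hfin Z d u h) (isDat_cj hw hfin Z d' u' h')

/-- Invariance under unitary equivalence. -/
theorem ind_unit' {a : Cycle G X H} {b : Cycle G X K} {v : H →L[ℂ] K} (e : Emb a b v)
    (hv : v ∘L adjoint v = 1) (d : HilbertBasis ι ℂ H) (u : ι ↪ ℕ) (d' : HilbertBasis κ ℂ K)
    (u' : κ ↪ ℕ) (h : ∀ T, Cp T → Cp (cj d u T)) (h' : ∀ T, Cp T → Cp (cj d' u' T)) :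
    (dat a hw hfin (cj d u) h).ind = (dat b hw hfin (cj d' u') h').ind :=
  ind_unit e hv hfin (isDat_cj hw hfin a d u h) (isDat_cj hw hfin b d' u' h')

/-- Additivity. -/
theorem ind_sum' {a : Cycle G X H} {b : Cycle G X K} {c : Cycle G X L} {v : H →L[ℂ] L}
    {v' : K →L[ℂ] L} (e : Emb a c v) (e' : Emb b c v')
    (hv : v ∘L adjoint v + v' ∘L adjoint v' = 1) (d : HilbertBasis ι ℂ H) (u : ι ↪ ℕ)
    (d' : HilbertBasis κ ℂ K) (u' : κ ↪ ℕ) (d'' : HilbertBasis μ ℂ L) (u'' : μ ↪ ℕ)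
    (h : ∀ T, Cp T → Cp (cj d u T)) (h' : ∀ T, Cp T → Cp (cj d' u' T))
    (h'' : ∀ T, Cp T → Cp (cj d'' u'' T)) :
    (dat c hw hfin (cj d'' u'') h'').ind =
      (dat a hw hfin (cj d u) h).ind + (dat b hw hfin (cj d' u') h').ind := by
  have k1 := isDat hw hfin a ((adV _ (isoN_iso d'' u'')).comp (adV v e.iso))
    fun T hT => adV_cp (isoN_iso d'' u'') _ (adV_cp e.iso T hT)
  have k2 := isDat hw hfin b ((adV _ (isoN_iso d'' u'')).comp (adV v' e'.iso))
    fun T hT => adV_cp (isoN_iso d'' u'') _ (adV_cp e'.iso T hT)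
  have k3 := ind_sum_comp e e' hv hfin (isDat_cj hw hfin c d'' u'' h'') k1 k2
  generalize dat a hw hfin ((adV _ (isoN_iso d'' u'')).comp (adV v e.iso)) _ = da at k1 k3
  generalize dat b hw hfin ((adV _ (isoN_iso d'' u'')).comp (adV v' e'.iso)) _ = db at k2 k3
  rw [adV_comp] at k1 k2
  rw [k3, ind_iso k1 (isDat_cj hw hfin a d u h), ind_iso k2 (isDat_cj hw hfin b d' u' h')]

/-- Invariance under operator homotopy. -/
theorem ind_htpy' {T : Type} [TopologicalSpace T] [PreconnectedSpace T] (c : T → Cycle G X H)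
    (a : Cycle G X H) (e : ∀ t, (c t).γ = a.γ ∧ (c t).ρ = a.ρ ∧ (c t).U = a.U)
    (hF : Continuous fun t => (c t).F) (d : HilbertBasis ι ℂ H) (u : ι ↪ ℕ)
    (h : ∀ T, Cp T → Cp (cj d u T)) (s t : T) :
    (dat (c s) hw hfin (cj d u) h).ind = (dat (c t) hw hfin (cj d u) h).ind :=
  ind_htpy (R := RR G) adm_hcont c a e hF (adV_cont (isoN_iso d u))
    (fun t => dat (c t) hw hfin (cj d u) h) (fun t => isDat_cj hw hfin (c t) d u h) s t

end Dat

end Vale.Agent.P089G45
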